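import Vale.Agent.P235.K5.H624.Fac
import Vale.Agent.P235.K5.H12.Int

/-!
# P235, 3-sums (helper624): decomposition into pieces without a clique separator

`split`: a finite graph is glued along cliques of order at most `k` from pieces without a clique
separator of order at most `k`. `facial_of_planar`: a clique sum of order at most three of planar
graphs, along any cliques, is such a sum of connected planar graphs whose root cliques lie on a
face.
-/

set_option autoImplicit false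
set_option linter.all false

namespace Vale.Agent.P235.K5.H624

open SimpleGraph Vale.Agent.P235.H134 Vale.Agent.P235.K5
open Vale.Agent.P235.H341W (capG)
open Vale.Agent.P235.H56 (K33)

variable {k : ℕ} {V : Type} {H : SimpleGraph V}

/-- no clique with at most `k` vertices separates `H[S]` -/
def Atom (k : ℕ) {V : Type} (H : SimpleGraph V) (S : Set V) : Prop :=
  ∀ K ⊆ S, K.ncard ≤ k → (∀ u ∈ K, ∀ v ∈ K, u ≠ v → H.Adj u v) → ∀ C ⊆ S \ K, C.Nonempty →
    (∀ u ∈ C, ∀ v ∈ S \ K, H.Adj u v → v ∈ C) → S \ K ⊆ C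

/-- `Glued` for the subgraph `H[A]` -/
structure GOn (k : ℕ) {V : Type} (H : SimpleGraph V) (A : Set V) (n : ℕ) (B : ℕ → Set V) :
    Prop where
  sub : ∀ t < n, B t ⊆ A
  cover : ∀ v ∈ A, ∃ t, t < n ∧ v ∈ B t
  card : ∀ t < n, (Adh B t).ncard ≤ k
  clique : ∀ t < n, ∀ u ∈ Adh B t, ∀ v ∈ Adh B t, u ≠ v → H.Adj u v
  sep : ∀ t < n, ∀ u v, u ∈ B t → u ∉ Bef B t → v ∈ Bef B t → v ∉ B t → ¬ H.Adj u v

theorem GOn.glue [Finite V] {A₁ A₂ K : Set V} {n₁ n₂ : ℕ} {B₁ B₂ : ℕ → Set V}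
    (h₁ : GOn k H A₁ n₁ B₁) (h₂ : GOn k H A₂ n₂ B₂)
    (hK : ∀ v, v ∈ A₁ → v ∈ A₂ → v ∈ K) (hKc : K.ncard ≤ k)
    (hKq : ∀ u ∈ K, ∀ v ∈ K, u ≠ v → H.Adj u v)
    (hsep : ∀ u ∈ A₂, u ∉ A₁ → ∀ v ∈ A₁, v ∉ A₂ → ¬ H.Adj u v) (hKB : K ⊆ B₂ 0) :
    GOn k H (A₁ ∪ A₂) (n₁ + n₂) (fun t => if t < n₁ then B₁ t else B₂ (t - n₁)) := by
  set B : ℕ → Set V := fun t => if t < n₁ then B₁ t else B₂ (t - n₁) with hB
  have b1 : ∀ t, t < n₁ → B t = B₁ t := fun t ht => if_pos ht
  have b2 : ∀ s, B (n₁ + s) = B₂ s := fun s => by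
    have : ¬ n₁ + s < n₁ := by omega
    show (if n₁ + s < n₁ then B₁ (n₁ + s) else B₂ (n₁ + s - n₁)) = B₂ s
    rw [if_neg this, Nat.add_sub_cancel_left]
  have e1 : ∀ t, t ≤ n₁ → ∀ v, v ∈ Bef B t ↔ v ∈ Bef B₁ t := by
    intro t ht v
    constructor
    · rintro ⟨s, hs, hv⟩
      rw [b1 s (by omega)] at hv
      exact ⟨s, hs, hv⟩
    · rintro ⟨s, hs, hv⟩
      refine ⟨s, hs, ?_⟩
      rw [b1 s (by omega)]
      exact hv
  have e2 : ∀ s v, v ∈ Bef B (n₁ + s) → v ∈ A₁ ∨ v ∈ Bef B₂ s := by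
    rintro s v ⟨t, ht, hv⟩
    by_cases h : t < n₁
    · rw [b1 t h] at hv
      exact Or.inl (h₁.sub t h hv)
    · obtain ⟨t', rfl⟩ : ∃ t', t = n₁ + t' := ⟨t - n₁, by omega⟩
      rw [b2] at hv
      exact Or.inr ⟨t', by omega, hv⟩
  have e3 : ∀ s v, v ∈ A₁ ∨ v ∈ Bef B₂ s → v ∈ Bef B (n₁ + s) := by
    rintro s v (hv | ⟨t, ht, hv⟩)
    · obtain ⟨t, ht, hv'⟩ := h₁.cover v hv
      exact ⟨t, by omega, by rw [b1 t ht]; exact hv'⟩
    · exact ⟨n₁ + t, by omega, by rw [b2]; exact hv⟩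
  have a1 : ∀ t, t < n₁ → Adh B t = Adh B₁ t := by
    intro t ht
    ext v
    show (v ∈ B t ∧ v ∈ Bef B t) ↔ (v ∈ B₁ t ∧ v ∈ Bef B₁ t)
    rw [b1 t ht, e1 t ht.le]
  have a2 : ∀ s, s < n₂ → Adh B (n₁ + s) ⊆ K ∨ Adh B (n₁ + s) ⊆ Adh B₂ s := by
    intro s hs
    rcases Nat.eq_zero_or_pos s with h0 | h0
    · left
      rintro v ⟨hv, hv'⟩
      rw [b2] at hv
      rcases e2 s v hv' with h | ⟨t, ht, _⟩
      · exact hK v h (h₂.sub s hs hv)
      · omega
    · right
      rintro v ⟨hv, hv'⟩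
      rw [b2] at hv
      refine ⟨hv, ?_⟩
      rcases e2 s v hv' with h | h
      · exact ⟨0, h0, hKB (hK v h (h₂.sub s hs hv))⟩
      · exact h
  have cs : ∀ t, t < n₁ + n₂ → t < n₁ ∨ ∃ s, s < n₂ ∧ t = n₁ + s := by
    intro t ht
    by_cases h : t < n₁
    · exact Or.inl h
    · exact Or.inr ⟨t - n₁, by omega, by omega⟩
  refine ⟨?_, ?_, ?_, ?_, ?_⟩
  · intro t ht
    rcases cs t ht with h | ⟨s, hs, rfl⟩
    · rw [b1 t h]
      exact (h₁.sub t h).trans Set.subset_union_left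
    · rw [b2]
      exact (h₂.sub s hs).trans Set.subset_union_right
  · rintro v (hv | hv)
    · obtain ⟨t, ht, h⟩ := h₁.cover v hv
      exact ⟨t, by omega, by rw [b1 t ht]; exact h⟩
    · obtain ⟨t, ht, h⟩ := h₂.cover v hv
      exact ⟨n₁ + t, by omega, by rw [b2]; exact h⟩
  · intro t ht
    rcases cs t ht with h | ⟨s, hs, rfl⟩
    · rw [a1 t h]
      exact h₁.card t h
    · rcases a2 s hs with h | h
      · exact (Set.ncard_le_ncard h (Set.toFinite _)).trans hKc
      · exact (Set.ncard_le_ncard h (Set.toFinite _)).trans (h₂.card s hs)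
  · intro t ht
    rcases cs t ht with h | ⟨s, hs, rfl⟩
    · rw [a1 t h]
      exact h₁.clique t h
    · rcases a2 s hs with h | h
      · exact fun u hu v hv => hKq u (h hu) v (h hv)
      · exact fun u hu v hv => h₂.clique s hs u (h hu) v (h hv)
  · intro t ht u v hu hu' hv hv'
    rcases cs t ht with h | ⟨s, hs, rfl⟩
    · rw [b1 t h] at hu hv'
      rw [e1 t h.le] at hu' hv
      exact h₁.sep t h u v hu hu' hv hv'
    · rw [b2] at hu hv'
      have hu1 : u ∉ A₁ := fun h => hu' (e3 s u (Or.inl h))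
      have hu2 : u ∉ Bef B₂ s := fun h => hu' (e3 s u (Or.inr h))
      rcases e2 s v hv with h | h
      · by_cases hv2 : v ∈ A₂
        · have hvK := hKB (hK v h hv2)
          rcases Nat.eq_zero_or_pos s with h0 | h0
          · rw [h0] at hv'
            exact absurd hvK hv'
          · exact h₂.sep s hs u v hu hu2 ⟨0, h0, hvK⟩ hv'
        · exact hsep u (h₂.sub s hs hu) hu1 v h hv2
      · exact h₂.sep s hs u v hu hu2 h hv'

theorem GOn.one (A : Set V) : GOn k H A 1 (fun _ => A) := by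
  have hno : ∀ t, t < 1 → ∀ v, v ∉ Bef (fun _ : ℕ => A) t := by
    rintro t ht v ⟨s, hs, _⟩
    omega
  refine ⟨fun t _ => subset_refl _, fun v hv => ⟨0, by omega, hv⟩, fun t ht => ?_,
    fun t ht u hu => absurd hu.2 (hno t ht u), fun t ht u v _ _ hv => absurd hv (hno t ht v)⟩
  have : Adh (fun _ : ℕ => A) t = ∅ := by
    ext v
    constructor
    · rintro ⟨_, h⟩
      exact absurd h (hno t ht v)
    · rintro ⟨⟩
  rw [this, Set.ncard_empty]
  omega

theorem split_aux [Finite V] (H : SimpleGraph V) : ∀ (m : ℕ) (A : Set V), A.ncard < m →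
    A.Nonempty → ∀ C ⊆ A, C.ncard ≤ k → (∀ u ∈ C, ∀ v ∈ C, u ≠ v → H.Adj u v) →
    ∃ (n : ℕ) (B : ℕ → Set V), 0 < n ∧ C ⊆ B 0 ∧ GOn k H A n B ∧
      ∀ t < n, (B t).Nonempty ∧ Atom k H (B t) := by
  intro m
  induction m with
  | zero => intro A h; omega
  | succ m ih =>
    intro A hA hne C hC hCk hCq
    by_cases hAt : Atom k H A
    · exact ⟨1, fun _ => A, Nat.one_pos, hC, GOn.one A, fun t _ => ⟨hne, hAt⟩⟩
    · unfold Atom at hAt
      push Not at hAt
      obtain ⟨K, hKA, hKk, hKq, D, hD, hDne, hDcl, hno⟩ := hAt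
      rw [Set.not_subset] at hno
      obtain ⟨w, hw, hwD⟩ := hno
      obtain ⟨d, hd⟩ := hDne
      have l1 : (D ∪ K).ncard < m := by
        have : (D ∪ K).ncard < A.ncard := by
          refine Set.ncard_lt_ncard ⟨Set.union_subset (hD.trans Set.sdiff_subset) hKA, ?_⟩
            (Set.toFinite _)
          intro h
          rcases h hw.1 with h1 | h1
          · exact hwD h1
          · exact hw.2 h1
        omega
      have l2 : (A \ D).ncard < m := by
        have : (A \ D).ncard < A.ncard := by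
          refine Set.ncard_lt_ncard ⟨Set.sdiff_subset, ?_⟩ (Set.toFinite _)
          intro h
          exact (h (hD hd).1).2 hd
        omega
      have hK2 : K ⊆ A \ D := fun x hx => ⟨hKA hx, fun h => (hD h).2 hx⟩
      have hu : (D ∪ K) ∪ (A \ D) = A := by
        ext x
        constructor
        · rintro ((h | h) | h)
          · exact (hD h).1
          · exact hKA h
          · exact h.1
        · intro h
          by_cases hx : x ∈ D
          · exact Or.inl (Or.inl hx)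
          · exact Or.inr ⟨h, hx⟩
      have hi : ∀ v, v ∈ D ∪ K → v ∈ A \ D → v ∈ K := by
        rintro v (h | h) h'
        · exact absurd h h'.2
        · exact h
      have hs : ∀ u ∈ D ∪ K, u ∉ A \ D → ∀ v ∈ A \ D, v ∉ D ∪ K → ¬ H.Adj u v := by
        intro u hu1 hu2 v hv1 hv2 huv
        have huD : u ∈ D := by
          rcases hu1 with h | h
          · exact h
          · exact absurd (hK2 h) hu2
        exact hv1.2 (hDcl u huD v ⟨hv1.1, fun h => hv2 (Or.inr h)⟩ huv)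
      by_cases hCc : C ⊆ D ∪ K
      · obtain ⟨n₁, B₁, hn₁, hC₁, hG₁, hA₁⟩ := ih (D ∪ K) l1 ⟨d, Or.inl hd⟩ C hCc hCk hCq
        obtain ⟨n₂, B₂, hn₂, hC₂, hG₂, hA₂⟩ := ih (A \ D) l2 ⟨w, hw.1, hwD⟩ K hK2 hKk hKq
        have hg := hG₁.glue hG₂ hi hKk hKq (fun u h1 h2 v h3 h4 e => hs v h3 h4 u h1 h2 e.symm) hC₂
        rw [hu] at hg
        refine ⟨_, _, by omega, ?_, hg, ?_⟩
        · rw [if_pos hn₁]
          exact hC₁
        · intro t ht
          split_ifs with h
          · exact hA₁ t h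
          · exact hA₂ _ (by omega)
      · have hCc' : C ⊆ A \ D := by
          rw [Set.not_subset] at hCc
          obtain ⟨x, hx, hx'⟩ := hCc
          intro y hy
          refine ⟨hC hy, fun hyD => ?_⟩
          have hxD : x ∉ D := fun h => hx' (Or.inl h)
          have hyx : y ≠ x := fun e => hxD (e ▸ hyD)
          exact hxD (hDcl y hyD x ⟨hC hx, fun h => hx' (Or.inr h)⟩ (hCq y hy x hx hyx))
        obtain ⟨n₁, B₁, hn₁, hC₁, hG₁, hA₁⟩ := ih (A \ D) l2 ⟨w, hw.1, hwD⟩ C hCc' hCk hCq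
        obtain ⟨n₂, B₂, hn₂, hC₂, hG₂, hA₂⟩ := ih (D ∪ K) l1 ⟨d, Or.inl hd⟩ K
          Set.subset_union_right hKk hKq
        have hg := hG₁.glue hG₂ (fun v h1 h2 => hi v h2 h1) hKk hKq hs hC₂
        rw [Set.union_comm, hu] at hg
        refine ⟨_, _, by omega, ?_, hg, ?_⟩
        · rw [if_pos hn₁]
          exact hC₁
        · intro t ht
          split_ifs with h
          · exact hA₁ t h
          · exact hA₂ _ (by omega)

/-- **Decomposition along cliques.** -/
theorem split [Finite V] [Nonempty V] (H : SimpleGraph V) (C : Set V) (hCk : C.ncard ≤ k)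
    (hCq : ∀ u ∈ C, ∀ v ∈ C, u ≠ v → H.Adj u v) :
    ∃ (n : ℕ) (B : ℕ → Set V), 0 < n ∧ C ⊆ B 0 ∧ Glued k H n B ∧
      ∀ t < n, (B t).Nonempty ∧ Atom k H (B t) := by
  obtain ⟨n, B, h0, h1, h2, h3⟩ := split_aux (k := k) H ((Set.univ : Set V).ncard + 1) Set.univ
    (Nat.lt_succ_self _) Set.univ_nonempty C (Set.subset_univ _) hCk hCq
  exact ⟨n, B, h0, h1, ⟨fun v => h2.cover v (Set.mem_univ v), h2.card, h2.clique, h2.sep⟩, h3⟩

/-- a piece without a clique separator lies in one bag -/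
theorem atom_in_bag [Finite V] {n : ℕ} {B : ℕ → Set V} {A : Set V} (h : Glued k H n B)
    (hA : Atom k H A) (hne : A.Nonempty) : ∃ t < n, A ⊆ B t := by
  have key : ∀ m, m ≤ n → A ⊆ Bef B m → ∃ t < n, A ⊆ B t := by
    intro m
    induction m with
    | zero =>
      intro _ hs
      obtain ⟨a, ha⟩ := hne
      obtain ⟨s, hs', _⟩ := hs ha
      omega
    | succ m ih =>
      intro hm hs
      by_cases hb : A ⊆ Bef B m
      · exact ih (by omega) hb
      · rw [Set.not_subset] at hb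
        obtain ⟨c, hc, hcm⟩ := hb
        have mem : ∀ v ∈ A, v ∈ B m ∨ v ∈ Bef B m := by
          intro v hv
          obtain ⟨s, hs', h1⟩ := hs hv
          by_cases hsm : s = m
          · left; rw [← hsm]; exact h1
          · right; exact ⟨s, by omega, h1⟩
        have h1 := hA {x | x ∈ A ∧ x ∈ Adh B m} (fun x hx => hx.1)
          ((Set.ncard_le_ncard (fun x hx => hx.2) (Set.toFinite _)).trans (h.card m (by omega)))
          (fun u hu v hv => h.clique m (by omega) u hu.2 v hv.2)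
          {x | x ∈ A ∧ x ∉ Bef B m} (fun x hx => ⟨hx.1, fun hh => hx.2 hh.2.2⟩) ⟨c, hc, hcm⟩
          (fun u hu v hv huv => by
            refine ⟨hv.1, fun hvb => ?_⟩
            by_cases hvB : v ∈ B m
            · exact hv.2 ⟨hv.1, hvB, hvb⟩
            · exact h.sep m (by omega) u v ((mem u hu.1).resolve_right hu.2) hu.2 hvb hvB huv)
        refine ⟨m, by omega, fun x hx => ?_⟩
        by_cases hxK : x ∈ {x | x ∈ A ∧ x ∈ Adh B m}
        · exact hxK.2.1
        · exact (mem x hx).resolve_right (h1 ⟨hx, hxK⟩).2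
  refine key n le_rfl fun v _ => ?_
  obtain ⟨t, ht, hv⟩ := h.cover v
  exact ⟨t, ht, hv⟩

/-! ### Minors of induced subgraphs -/

theorem Cn.image {V W : Type} {G : SimpleGraph V} {G' : SimpleGraph W} {S : Set V} (f : V → W)
    (hf : ∀ u v, G.Adj u v → G'.Adj (f u) (f v)) (hS : Cn G S) : Cn G' (f '' S) := by
  refine ⟨hS.1.image f, fun C hC hne hcl => ?_⟩
  have h1 := hS.2 (f ⁻¹' C ∩ S) Set.inter_subset_right (by
      obtain ⟨c, hc⟩ := hne
      obtain ⟨x, hx, rfl⟩ := hC hc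
      exact ⟨x, hc, hx⟩)
    fun u hu v hv huv => ⟨hcl _ hu.1 _ ⟨v, hv, rfl⟩ (hf u v huv), hv⟩
  rintro _ ⟨x, hx, rfl⟩
  exact (h1 hx).1

theorem minor_map {V V' W : Type} {K : SimpleGraph W} {G : SimpleGraph V} {G' : SimpleGraph V'}
    (f : V → V') (hf : Function.Injective f) (hh : ∀ u v, G.Adj u v → G'.Adj (f u) (f v))
    (h : IsMinor K G) : IsMinor K G' := by
  obtain ⟨μ, h1, h2, h3⟩ := h
  refine ⟨fun a => f '' μ a, fun a => cn_iff.2 ((cn_iff.1 (h1 a)).image f hh),
    fun a b hab => (Set.disjoint_image_iff hf).2 (h2 a b hab), fun a b hab => ?_⟩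
  obtain ⟨x, hx, y, hy, e⟩ := h3 a b hab
  exact ⟨f x, ⟨x, hx, rfl⟩, f y, ⟨y, hy, rfl⟩, hh x y e⟩

theorem minor_induce {W : Type} {K : SimpleGraph W} {S T : Set V} (hST : S ⊆ T)
    (h : IsMinor K (H.induce S)) : IsMinor K (H.induce T) :=
  minor_map (fun x : S => (⟨x, hST x.2⟩ : T))
    (fun x y e => Subtype.ext (congrArg (fun z : T => (z : V)) e)) (fun _ _ huv => huv) h

theorem Atom.cn {S : Set V} (h : Atom k H S) (hne : S.Nonempty) : Cn H S := by
  refine ⟨hne, fun C hC hCne hcl => ?_⟩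
  have h1 := h ∅ (Set.empty_subset _) (by rw [Set.ncard_empty]; omega)
    (fun u hu => absurd hu (Set.notMem_empty u)) C (by simpa using hC) hCne
    (fun u hu v hv => hcl u hu v (by simpa using hv))
  simpa using h1

/-! ### The result -/

/-- planar graphs, by Wagner's theorem (no condition on the root) -/
def Pl (V : Type) (G : SimpleGraph V) (_ : Set V) : Prop :=
  ¬ IsMinor (⊤ : SimpleGraph (Fin 5)) G ∧ ¬ IsMinor K33 G

/-- connected graphs with the root on a face -/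
def FPl (V : Type) (G : SimpleGraph V) (R : Set V) : Prop :=
  G.Connected ∧ ¬ IsMinor K33 (capG G R)

/-- the piece of a bag without a clique separator has its adhesion on a face -/
theorem atom_face [Finite V] {S R : Set V} (hS : Atom 3 H S) (hne : S.Nonempty)
    (h5 : ¬ IsMinor (⊤ : SimpleGraph (Fin 5)) (H.induce S)) (h33 : ¬ IsMinor K33 (H.induce S))
    (hRS : R ⊆ S) (hR3 : R.ncard ≤ 3) (hR : ∀ u ∈ R, ∀ v ∈ R, u ≠ v → H.Adj u v) :
    (H.induce S).Connected ∧ ¬ IsMinor K33 (capG (H.induce S) {x | (x : V) ∈ R}) := by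
  refine ⟨cn_iff.2 (hS.cn hne), fac h5 h33 ?_ ?_ ?_⟩
  · intro u hu v hv huv
    exact hR u hu v hv fun e => huv (Subtype.ext e)
  · rw [← Set.ncard_image_of_injective _ (Subtype.val_injective (p := fun x => x ∈ S))]
    refine (Set.ncard_le_ncard ?_ (Set.toFinite _)).trans hR3
    rintro _ ⟨x, hx, rfl⟩
    exact hx
  · intro C hC hCR hcl v
    have h1 := hS R hRS hR3 hR (Subtype.val '' C)
      (by
        rintro _ ⟨x, hx, rfl⟩
        exact ⟨x.2, fun h => Set.disjoint_left.1 hCR hx h⟩)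
      (hC.image _)
      (by
        rintro _ ⟨x, hx, rfl⟩ y hy hxy
        rcases hcl x hx ⟨y, hy.1⟩ hxy with h | h
        · exact ⟨_, h, rfl⟩
        · exact absurd h hy.2)
    by_cases hv : (v : V) ∈ R
    · exact Or.inr hv
    · obtain ⟨x, hx, e⟩ := h1 ⟨v.2, hv⟩
      left
      have : x = v := Subtype.ext e
      rw [← this]
      exact hx

/-- **The facial condition costs nothing.** -/
theorem facial_of_planar [Finite V] (h : CliqueSum 3 Pl H) : CliqueSum 3 FPl H := by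
  obtain ⟨n, B, hG, hP⟩ := h
  rcases isEmpty_or_nonempty V with he | hne
  · exact ⟨0, fun _ => ∅, ⟨fun v => he.elim v, fun t ht => by omega, fun t ht => by omega,
      fun t ht => by omega⟩, fun t ht => by omega⟩
  · obtain ⟨m, A, _, _, hA, hAt⟩ := split (k := 3) H ∅ (by rw [Set.ncard_empty]; omega)
      (fun u hu => absurd hu (Set.notMem_empty u))
    refine ⟨m, A, hA, fun t ht => ?_⟩
    obtain ⟨s, hs, hsub⟩ := atom_in_bag hG (hAt t ht).2 (hAt t ht).1
    have h1 := hP s hs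
    exact atom_face (hAt t ht).2 (hAt t ht).1 (fun h => h1.1 (minor_induce hsub h))
      (fun h => h1.2 (minor_induce hsub h)) (fun v hv => hv.1) (hA.card t ht) (hA.clique t ht)

end Vale.Agent.P235.K5.H624
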