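import Mathlib.Combinatorics.SimpleGraph.Connectivity.Connected
import Mathlib.Data.Set.Card

/-!
# P235, 3-sums (helper624): connected sets of vertices
-/

set_option autoImplicit false

namespace Vale.Agent.P235.K5.H624

open SimpleGraph

variable {V : Type} {G : SimpleGraph V} {S T : Set V}

/-- `S` is nonempty, and is the only nonempty subset of itself closed under the edges of `G[S]`. -/
def Cn (G : SimpleGraph V) (S : Set V) : Prop :=
  S.Nonempty ∧ ∀ C ⊆ S, C.Nonempty → (∀ u ∈ C, ∀ v ∈ S, G.Adj u v → v ∈ C) → S ⊆ C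

theorem reach_mem {C : Set V} (h : ∀ u ∈ C, ∀ v ∈ S, G.Adj u v → v ∈ C) {x y : S}
    (hx : (x : V) ∈ C) (hr : (G.induce S).Reachable x y) : (y : V) ∈ C := by
  obtain ⟨p⟩ := hr
  induction p with
  | nil => exact hx
  | cons ha _ ih => exact ih (h _ hx _ (Subtype.property _) ha)

theorem cn_iff : (G.induce S).Connected ↔ Cn G S := by
  constructor
  · intro h
    obtain ⟨x⟩ := h.nonempty
    refine ⟨⟨x, x.2⟩, fun C _ hC hcl v hv => ?_⟩
    obtain ⟨c, hc⟩ := hC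
    by_cases hcS : c ∈ S
    · exact reach_mem hcl (x := ⟨c, hcS⟩) (y := ⟨v, hv⟩) hc (h.preconnected _ _)
    · exact absurd (by assumption : C ⊆ S) fun h' => hcS (h' hc)
  · rintro ⟨⟨x, hx⟩, h⟩
    have : Nonempty S := ⟨⟨x, hx⟩⟩
    refine ⟨fun u v => ?_⟩
    have h1 := h {w | ∃ hw : w ∈ S, (G.induce S).Reachable u ⟨w, hw⟩} (fun w hw => hw.1)
      ⟨u, u.2, Reachable.refl _⟩ (fun a ha b hb hab => by
        obtain ⟨ha', hr⟩ := ha
        refine ⟨hb, hr.trans ?_⟩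
        have : (G.induce S).Adj ⟨a, ha'⟩ ⟨b, hb⟩ := hab
        exact this.reachable)
    exact (h1 v.2).2

theorem Cn.sing (v : V) : Cn G {v} :=
  ⟨Set.singleton_nonempty v, fun C hC hne _ x hx => by
    obtain ⟨c, hc⟩ := hne
    have h1 : c = v := hC hc
    have h2 : x = v := hx
    rw [h2, ← h1]
    exact hc⟩

theorem Cn.union (hS : Cn G S) (hT : Cn G T) {x y : V} (hx : x ∈ S) (hy : y ∈ T)
    (h : G.Adj x y) : Cn G (S ∪ T) := by
  refine ⟨hS.1.mono Set.subset_union_left, fun C hC hne hcl => ?_⟩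
  have kS : (∃ c ∈ C, c ∈ S) → S ⊆ C := by
    rintro ⟨c, hc, hcS⟩
    have := hS.2 (C ∩ S) Set.inter_subset_right ⟨c, hc, hcS⟩
      fun u hu v hv hv' => ⟨hcl u hu.1 v (Or.inl hv) hv', hv⟩
    exact this.trans Set.inter_subset_left
  have kT : (∃ c ∈ C, c ∈ T) → T ⊆ C := by
    rintro ⟨c, hc, hcT⟩
    have := hT.2 (C ∩ T) Set.inter_subset_right ⟨c, hc, hcT⟩
      fun u hu v hv hv' => ⟨hcl u hu.1 v (Or.inr hv) hv', hv⟩
    exact this.trans Set.inter_subset_left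
  obtain ⟨c, hc⟩ := hne
  rcases hC hc with h1 | h1
  · have h2 := kS ⟨c, hc, h1⟩
    exact Set.union_subset h2 (kT ⟨y, hcl x (h2 hx) y (Or.inr hy) h, hy⟩)
  · have h2 := kT ⟨c, hc, h1⟩
    exact Set.union_subset (kS ⟨x, hcl y (h2 hy) x (Or.inl hx) h.symm, hx⟩) h2

/-- Removal of a component of `Y \ {r}`. -/
theorem exists_comp {Y : Set V} (hY : Cn G Y) {r y : V} (hr : r ∈ Y) (hy : y ∈ Y) (hne : y ≠ r) :
    ∃ D ⊆ Y, y ∈ D ∧ r ∉ D ∧ Cn G D ∧ Cn G (Y \ D) ∧ ∃ u ∈ D, G.Adj u r := by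
  set T : Set V := Y \ {r} with hT
  have hyT : y ∈ T := ⟨hy, hne⟩
  set D : Set V := {v | ∃ h : v ∈ T, (G.induce T).Reachable ⟨y, hyT⟩ ⟨v, h⟩} with hD
  have dT : D ⊆ T := fun v hv => hv.1
  have dcl : ∀ u ∈ D, ∀ v ∈ T, G.Adj u v → v ∈ D := by
    rintro u ⟨hu, hr'⟩ v hv huv
    refine ⟨hv, hr'.trans ?_⟩
    have : (G.induce T).Adj ⟨u, hu⟩ ⟨v, hv⟩ := huv
    exact this.reachable
  have yD : y ∈ D := ⟨hyT, Reachable.refl _⟩
  have rD : r ∉ D := fun h => (dT h).2 rfl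
  refine ⟨D, dT.trans Set.diff_subset, yD, rD, ⟨⟨y, yD⟩, fun C hC hne' hcl => ?_⟩,
    ⟨⟨r, hr, rD⟩, fun C hC hne' hcl => ?_⟩, ?_⟩
  · obtain ⟨c, hc⟩ := hne'
    obtain ⟨hcT, hcr⟩ := hC hc
    rintro v ⟨hvT, hvr⟩
    exact reach_mem (S := T) (fun u hu w hw huw => hcl u hu w (dcl u (hC hu) w hw huw) huw)
      (x := ⟨c, hcT⟩) (y := ⟨v, hvT⟩) hc (hcr.symm.trans hvr)
  · have key : ∀ C' : Set V, C' ⊆ Y \ D → C'.Nonempty →
        (∀ u ∈ C', ∀ v ∈ Y \ D, G.Adj u v → v ∈ C') → r ∈ C' := by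
      intro C' hC' hne'' hcl'
      by_contra hrC
      have := hY.2 C' (hC'.trans Set.diff_subset) hne'' fun u hu v hv huv => by
        by_cases hvD : v ∈ D
        · exfalso
          have hu' : u ∈ T := ⟨(hC' hu).1, fun h => hrC (by
            have : u = r := h
            rw [← this]; exact hu)⟩
          exact (hC' hu).2 (dcl v hvD u hu' huv.symm)
        · exact hcl' u hu v ⟨hv, hvD⟩ huv
      exact hrC (this hr)
    have hrC := key C hC hne' hcl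
    intro v hv
    by_contra hvC
    have := key ((Y \ D) \ C) Set.diff_subset ⟨v, hv, hvC⟩ fun u hu w hw huw =>
      ⟨hw, fun hwC => hu.2 (hcl w hwC u hu.1 huw.symm)⟩
    exact this.2 hrC
  · by_contra hno
    push Not at hno
    have := hY.2 D (dT.trans Set.diff_subset) ⟨y, yD⟩ fun u hu v hv huv => by
      by_cases hvr : v = r
      · exact absurd (hvr ▸ huv) (hno u hu)
      · exact dcl u hu v ⟨hv, hvr⟩ huv
    exact rD (this hr)

end Vale.Agent.P235.K5.H624
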