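import Vale.Agent.P235.K5.H624.Cn
import Vale.Agent.P235.H56.Defs

/-!
# P235, 3-sums (helper624): a clique of a planar graph which does not separate lies on a face

`fac`: `G` has no `K_5` minor and no `K_{3,3}` minor, `R` is a clique with at most three vertices
which does not separate `G`. Then `G` and a new vertex joined to `R` have no `K_{3,3}` minor.
-/

set_option autoImplicit false
set_option linter.all false

namespace Vale.Agent.P235.K5.H624

open SimpleGraph Vale.Agent.P235.H134
open Vale.Agent.P235.H341W (capG)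
open Vale.Agent.P235.H56 (K33)

variable {V : Type} {G : SimpleGraph V} {S T S' T' : Set V}

/-- an edge from `S` to `T` -/
def Tch (G : SimpleGraph V) (S T : Set V) : Prop := ∃ x ∈ S, ∃ y ∈ T, G.Adj x y

theorem Tch.symm (h : Tch G S T) : Tch G T S := by
  obtain ⟨x, hx, y, hy, e⟩ := h
  exact ⟨y, hy, x, hx, e.symm⟩

theorem Tch.mono (h : Tch G S T) (h1 : S ⊆ S') (h2 : T ⊆ T') : Tch G S' T' := by
  obtain ⟨x, hx, y, hy, e⟩ := h
  exact ⟨x, h1 hx, y, h2 hy, e⟩

theorem k33_of {A B : Fin 3 → Set V} (hA : ∀ i, Cn G (A i)) (hB : ∀ i, Cn G (B i))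
    (dA : ∀ i j, i ≠ j → Disjoint (A i) (A j)) (dB : ∀ i j, i ≠ j → Disjoint (B i) (B j))
    (dAB : ∀ i j, Disjoint (A i) (B j)) (t : ∀ i j, Tch G (A i) (B j)) : IsMinor K33 G := by
  refine ⟨Sum.elim A B, ?_, ?_, ?_⟩
  · rintro (i | i)
    · exact cn_iff.2 (hA i)
    · exact cn_iff.2 (hB i)
  · rintro (i | i) (j | j) h
    · exact dA i j (fun e => h (by rw [e]))
    · exact dAB i j
    · exact (dAB j i).symm
    · exact dB i j (fun e => h (by rw [e]))
  · rintro (i | i) (j | j) h
    · simp at h
    · exact t i j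
    · exact (t j i).symm
    · simp at h

theorem k5_of {X : Fin 2 → Set V} {Y : Fin 3 → Set V} (hX : ∀ i, Cn G (X i))
    (hY : ∀ i, Cn G (Y i))
    (dX : ∀ i j, i ≠ j → Disjoint (X i) (X j) ∧ Tch G (X i) (X j))
    (dY : ∀ i j, i ≠ j → Disjoint (Y i) (Y j) ∧ Tch G (Y i) (Y j))
    (dXY : ∀ i j, Disjoint (X i) (Y j) ∧ Tch G (X i) (Y j)) :
    IsMinor (⊤ : SimpleGraph (Fin 5)) G := by
  have key : ∀ a b : Fin 2 ⊕ Fin 3, a ≠ b →
      Disjoint (Sum.elim X Y a) (Sum.elim X Y b) ∧ Tch G (Sum.elim X Y a) (Sum.elim X Y b) := by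
    rintro (i | i) (j | j) h
    · exact dX i j (fun e => h (by rw [e]))
    · exact dXY i j
    · exact ⟨(dXY j i).1.symm, (dXY j i).2.symm⟩
    · exact dY i j (fun e => h (by rw [e]))
  have kc : ∀ a : Fin 2 ⊕ Fin 3, Cn G (Sum.elim X Y a) := by
    rintro (i | i)
    · exact hX i
    · exact hY i
  refine ⟨fun a => Sum.elim X Y ((finSumFinEquiv (m := 2) (n := 3)).symm a), ?_, ?_, ?_⟩
  · intro a
    exact cn_iff.2 (kc _)
  · intro a b h
    exact (key _ _ (fun e => h (Equiv.injective _ e))).1
  · intro a b h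
    exact (key _ _ (fun e => h.ne (Equiv.injective _ e))).2

/-- Two connected sets next to three connected rooted sets. -/
structure Mod (G : SimpleGraph V) (r : Fin 3 → V) (X : Fin 2 → Set V) (Y : Fin 3 → Set V) :
    Prop where
  cX : ∀ j, Cn G (X j)
  cY : ∀ i, Cn G (Y i)
  rY : ∀ i, r i ∈ Y i
  dX : ∀ j j', j ≠ j' → Disjoint (X j) (X j')
  dY : ∀ i i', i ≠ i' → Disjoint (Y i) (Y i')
  dXY : ∀ j i, Disjoint (X j) (Y i)
  t : ∀ j i, Tch G (X j) (Y i)

variable {r : Fin 3 → V} {X : Fin 2 → Set V} {Y : Fin 3 → Set V}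

theorem Mod.grow (h : Mod G r X Y) {j : Fin 2} {D : Set V} (hD : Cn G D)
    (hj : Tch G (X j) D) (hX : ∀ j', Disjoint D (X j')) (hr : ∀ i, r i ∉ D)
    (hY : ∀ i, Cn G (Y i \ D)) (ht : ∀ j' i, j' ≠ j → Tch G (X j') (Y i \ D))
    (ht' : ∀ i, Tch G (X j ∪ D) (Y i \ D)) :
    Mod G r (fun j' => if j' = j then X j ∪ D else X j') (fun i => Y i \ D) := by
  have hcX : Cn G (X j ∪ D) := by
    obtain ⟨x, hx, y, hy, e⟩ := hj
    exact (h.cX j).union hD hx hy e
  refine ⟨?_, hY, fun i => ⟨h.rY i, hr i⟩, ?_, ?_, ?_, ?_⟩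
  · intro j'
    split_ifs with e
    · exact hcX
    · exact h.cX j'
  · intro a b hab
    split_ifs with e1 e2 e2
    · exact absurd (e1.trans e2.symm) hab
    · exact (h.dX j b (fun e => hab (e1.trans e))).union_left (hX b)
    · exact (h.dX a j (fun e => hab (e.trans e2.symm))).union_right (hX a).symm
    · exact h.dX a b hab
  · intro a b hab
    exact (h.dY a b hab).mono Set.sdiff_subset Set.sdiff_subset
  · intro a b
    split_ifs with e
    · exact ((h.dXY j b).mono_right Set.sdiff_subset).union_left Set.disjoint_sdiff_right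
    · exact (h.dXY a b).mono_right Set.sdiff_subset
  · intro a b
    split_ifs with e
    · exact ht' b
    · exact ht a b e

theorem grow_union (j : Fin 2) (D : Set V) :
    (if (0 : Fin 2) = j then X j ∪ D else X 0) ∪ (if (1 : Fin 2) = j then X j ∪ D else X 1) =
      (X 0 ∪ X 1) ∪ D := by
  fin_cases j
  · ext v
    simp
    tauto
  · ext v
    simp
    tauto

theorem fin2_other (j : Fin 2) : ∃ j' : Fin 2, j' ≠ j ∧ ∀ a, a = j ∨ a = j' := by
  fin_cases j
  · exact ⟨1, by decide, by decide⟩
  · exact ⟨0, by decide, by decide⟩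

theorem core [Finite V] (h5 : ¬ IsMinor (⊤ : SimpleGraph (Fin 5)) G) (h33 : ¬ IsMinor K33 G)
    (hr : ∀ i j, i ≠ j → G.Adj (r i) (r j))
    (hc : ∀ C : Set V, C.Nonempty → (∀ i, r i ∉ C) →
      (∀ u ∈ C, ∀ v, G.Adj u v → v ∈ C ∨ ∃ i, v = r i) → ∀ v, v ∈ C ∨ ∃ i, v = r i) :
    ∀ (m : ℕ) (X : Fin 2 → Set V) (Y : Fin 3 → Set V), Mod G r X Y →
      Nat.card V - (X 0 ∪ X 1).ncard < m → False := by
  intro m
  induction m with
  | zero => intro X Y _ h; omega
  | succ m ih =>
    intro X Y h hm
    -- no bigger model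
    have big : ∀ (j : Fin 2) (D : Set V), Cn G D → Tch G (X j) D → (∀ j', Disjoint D (X j')) →
        (∀ i, r i ∉ D) → (∀ i, Cn G (Y i \ D)) → (∀ j' i, j' ≠ j → Tch G (X j') (Y i \ D)) →
        (∀ i, Tch G (X j ∪ D) (Y i \ D)) → False := by
      intro j D hD hj hX hr' hY ht ht'
      refine ih _ _ (h.grow hD hj hX hr' hY ht ht') ?_
      rw [grow_union]
      have h1 : (X 0 ∪ X 1).ncard < ((X 0 ∪ X 1) ∪ D).ncard := by
        refine Set.ncard_lt_ncard (Set.ssubset_iff_subset_ne.2 ⟨Set.subset_union_left, ?_⟩)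
          (Set.toFinite _)
        intro e
        obtain ⟨d, hd⟩ := hD.1
        have hd' : d ∈ X 0 ∪ X 1 := by rw [e]; exact Or.inr hd
        rcases hd' with h2 | h2
        · exact Set.disjoint_left.1 (hX 0) hd h2
        · exact Set.disjoint_left.1 (hX 1) hd h2
      have h2 : ((X 0 ∪ X 1) ∪ D).ncard ≤ Nat.card V := Set.ncard_le_card _
      omega
    have c1 : ∀ (j : Fin 2), ∀ u ∈ X j, ∀ v, G.Adj u v →
        v ∈ X 0 ∨ v ∈ X 1 ∨ ∃ i, v = r i := by
      intro j u hu v huv
      by_contra hno
      push Not at hno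
      obtain ⟨n0, n1, nr⟩ := hno
      have nX : ∀ j', v ∉ X j' := by
        intro j'
        fin_cases j'
        · exact n0
        · exact n1
      by_cases hY : ∃ i, v ∈ Y i
      · obtain ⟨i, hi⟩ := hY
        obtain ⟨D, hDY, hvD, hrD, cD, cYD, w, hw, hwr⟩ := exists_comp (h.cY i) (h.rY i) hi (nr i)
        obtain ⟨j', hj', hjj⟩ := fin2_other j
        have hjD : Tch G (X j) D := ⟨u, hu, v, hvD, huv⟩
        have hne : ∀ k, k ≠ i → Y k \ D = Y k := by
          intro k hk
          exact (Disjoint.mono_right hDY (h.dY k i hk)).sdiff_eq_left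
        by_cases ht : Tch G (X j') (Y i \ D)
        · refine big j D cD hjD (fun a => ((h.dXY a i).symm).mono_left hDY) ?_ ?_ ?_ ?_
          · intro k hk
            by_cases e : k = i
            · exact hrD (e ▸ hk)
            · exact Set.disjoint_left.1 (h.dY k i e) (h.rY k) (hDY hk)
          · intro k
            by_cases e : k = i
            · rw [e]; exact cYD
            · rw [hne k e]; exact h.cY k
          · intro a k ha
            have ha' : a = j' := (hjj a).resolve_left ha
            by_cases e : k = i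
            · rw [e, ha']; exact ht
            · rw [hne k e]; exact h.t a k
          · intro k
            by_cases e : k = i
            · rw [e]
              exact ⟨w, Or.inr hw, r i, ⟨h.rY i, hrD⟩, hwr⟩
            · rw [hne k e]
              exact (h.t j k).mono Set.subset_union_left (subset_refl _)
        · have hjD' : Tch G (X j') D := by
            obtain ⟨x, hx, y, hy, e⟩ := h.t j' i
            by_cases hyD : y ∈ D
            · exact ⟨x, hx, y, hyD, e⟩
            · exact absurd ⟨x, hx, y, ⟨hy, hyD⟩, e⟩ ht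
          have hXD : ∀ a, Tch G (X a) D := by
            intro a
            rcases hjj a with e | e
            · rw [e]; exact hjD
            · rw [e]; exact hjD'
          refine h33 (k33_of (A := Fin.cons (α := fun _ => Set V) {r i} X)
            (B := fun k => if k = i then D else Y k) ?_ ?_ ?_ ?_ ?_ ?_)
          · intro a
            refine Fin.cases ?_ (fun a => ?_) a
            · exact Cn.sing (r i)
            · exact h.cX a
          · intro k
            split_ifs with e
            · exact cD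
            · exact h.cY k
          · have h0 : ∀ a, Disjoint ({r i} : Set V) (X a) := fun a =>
              Set.disjoint_singleton_left.2 fun hh => Set.disjoint_left.1 (h.dXY a i) hh (h.rY i)
            intro a b hab
            induction a using Fin.cases with
            | zero =>
              induction b using Fin.cases with
              | zero => exact absurd rfl hab
              | succ b => exact h0 b
            | succ a =>
              induction b using Fin.cases with
              | zero => exact (h0 a).symm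
              | succ b => exact h.dX a b fun e => hab (by rw [e])
          · intro a b hab
            split_ifs with e1 e2 e2
            · exact absurd (e1.trans e2.symm) hab
            · exact (h.dY i b (fun e => hab (e1.trans e))).mono_left hDY
            · exact (h.dY a i (fun e => hab (e.trans e2.symm))).mono_right hDY
            · exact h.dY a b hab
          · intro a b
            induction a using Fin.cases with
            | zero =>
              show Disjoint ({r i} : Set V) (if b = i then D else Y b)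
              split_ifs with e
              · exact Set.disjoint_singleton_left.2 hrD
              · exact Set.disjoint_singleton_left.2 fun hh =>
                  Set.disjoint_left.1 (h.dY b i e) hh (h.rY i)
            | succ a =>
              show Disjoint (X a) (if b = i then D else Y b)
              split_ifs with e
              · exact (h.dXY a i).mono_right hDY
              · exact h.dXY a b
          · intro a b
            induction a using Fin.cases with
            | zero =>
              show Tch G ({r i} : Set V) (if b = i then D else Y b)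
              split_ifs with e
              · exact ⟨r i, rfl, w, hw, hwr.symm⟩
              · exact ⟨r i, rfl, r b, h.rY b, hr i b (Ne.symm e)⟩
            | succ a =>
              show Tch G (X a) (if b = i then D else Y b)
              split_ifs with e
              · exact hXD a
              · exact h.t a b
      · push Not at hY
        have hne : ∀ k, Y k \ {v} = Y k := fun k => Set.sdiff_singleton_eq_self (hY k)
        refine big j {v} (Cn.sing v) ⟨u, hu, v, rfl, huv⟩
          (fun a => Set.disjoint_singleton_left.2 (nX a)) ?_ ?_ ?_ ?_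
        · intro k hk
          exact nr k (Eq.symm hk)
        · intro k
          rw [hne k]; exact h.cY k
        · intro a k _
          rw [hne k]; exact h.t a k
        · intro k
          rw [hne k]; exact (h.t j k).mono Set.subset_union_left (subset_refl _)
    have c2 : Tch G (X 0) (X 1) := by
      by_contra hno
      have h1 := hc (X 0) (h.cX 0).1 (fun i hi => Set.disjoint_left.1 (h.dXY 0 i) hi (h.rY i))
        fun u hu v huv => by
          rcases c1 0 u hu v huv with h2 | h2 | h2
          · exact Or.inl h2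
          · exact absurd ⟨u, hu, v, h2, huv⟩ hno
          · exact Or.inr h2
      obtain ⟨x, hx⟩ := (h.cX 1).1
      rcases h1 x with h2 | ⟨i, h2⟩
      · exact Set.disjoint_left.1 (h.dX 0 1 (by decide)) h2 hx
      · exact Set.disjoint_left.1 (h.dXY 1 i) hx (h2 ▸ h.rY i)
    have c3 : ∀ a b : Fin 2, a ≠ b → Tch G (X a) (X b) := by
      intro a b hab
      fin_cases a <;> fin_cases b
      · exact absurd rfl hab
      · exact c2
      · exact c2.symm
      · exact absurd rfl hab
    exact h5 (k5_of h.cX h.cY (fun a b hab => ⟨h.dX a b hab, c3 a b hab⟩)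
      (fun a b hab => ⟨h.dY a b hab, ⟨r a, h.rY a, r b, h.rY b, hr a b hab⟩⟩)
      fun a b => ⟨h.dXY a b, h.t a b⟩)

/-! ### The cap -/

variable {R : Set V}

theorem cn_pull (hR : ∀ u ∈ R, ∀ v ∈ R, u ≠ v → G.Adj u v) {A : Set (Option V)}
    (hA : Cn (capG G R) A) (hne : ∃ v, some v ∈ A) : Cn G {v | some v ∈ A} := by
  refine ⟨hne, fun C hC hCne hcl => ?_⟩
  have h1 := hA.2 {x | x ∈ A ∧ ((∃ v ∈ C, x = some v) ∨ (x = none ∧ ∃ w ∈ C, w ∈ R))}
    (fun x hx => hx.1) (by
      obtain ⟨c, hc⟩ := hCne
      exact ⟨some c, hC hc, Or.inl ⟨c, hc, rfl⟩⟩) (by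
      rintro u ⟨huA, (⟨u', hu', rfl⟩ | ⟨rfl, w, hw, hwR⟩)⟩ v hv huv
      · cases v with
        | none => exact ⟨hv, Or.inr ⟨rfl, u', hu', huv⟩⟩
        | some v' => exact ⟨hv, Or.inl ⟨v', hcl u' hu' v' hv huv, rfl⟩⟩
      · cases v with
        | none => exact absurd huv (SimpleGraph.irrefl _)
        | some v' =>
          have hv' : v' ∈ R := huv
          refine ⟨hv, Or.inl ⟨v', ?_, rfl⟩⟩
          by_cases e : w = v'
          · rw [← e]; exact hw
          · exact hcl w hw v' hv (hR w hwR v' hv' e))
  intro v hv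
  obtain ⟨_, ⟨w, hw, e⟩ | ⟨e, _⟩⟩ := h1 hv
  · have : v = w := Option.some.inj e
    rw [this]; exact hw
  · exact absurd e (by simp)

theorem no_model [Finite V] (h5 : ¬ IsMinor (⊤ : SimpleGraph (Fin 5)) G)
    (h33 : ¬ IsMinor K33 G) (hR : ∀ u ∈ R, ∀ v ∈ R, u ≠ v → G.Adj u v) (h3 : R.ncard ≤ 3)
    (hc : ∀ C : Set V, C.Nonempty → Disjoint C R →
      (∀ u ∈ C, ∀ v, G.Adj u v → v ∈ C ∨ v ∈ R) → ∀ v, v ∈ C ∨ v ∈ R)
    {P Q : Fin 3 → Set (Option V)} (hP : ∀ i, Cn (capG G R) (P i)) (hQ : ∀ i, Cn (capG G R) (Q i))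
    (dP : ∀ i j, i ≠ j → Disjoint (P i) (P j)) (dQ : ∀ i j, i ≠ j → Disjoint (Q i) (Q j))
    (dPQ : ∀ i j, Disjoint (P i) (Q j)) (t : ∀ i j, Tch (capG G R) (P i) (Q j)) (k : Fin 3)
    (hk : ∀ v, some v ∉ P k) : False := by
  have hn : none ∈ P k := by
    obtain ⟨x, hx⟩ := (hP k).1
    cases x with
    | none => exact hx
    | some v => exact absurd hx (hk v)
  have nP : ∀ i, i ≠ k → none ∉ P i := fun i hi h => Set.disjoint_left.1 (dP i k hi) h hn
  have nQ : ∀ i, none ∉ Q i := fun i h => Set.disjoint_left.1 (dPQ k i) hn h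
  have hex : ∀ b, ∃ x, x ∈ R ∧ some x ∈ Q b := by
    intro b
    obtain ⟨x, hx, y, hy, e⟩ := t k b
    cases x with
    | none =>
      cases y with
      | none => exact absurd hy (nQ b)
      | some y' => exact ⟨y', e, hy⟩
    | some v => exact absurd hx (hk v)
  choose r hrR hrQ using hex
  have hinj : Function.Injective r := by
    intro a b hab
    by_contra hne
    exact Set.disjoint_left.1 (dQ a b hne) (hrQ a) (by rw [hab]; exact hrQ b)
  have hr : ∀ i j, i ≠ j → G.Adj (r i) (r j) := fun i j hij =>
    hR _ (hrR i) _ (hrR j) (hinj.ne hij)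
  have hRr : r '' Set.univ = R := by
    refine Set.eq_of_subset_of_ncard_le ?_ ?_ (Set.toFinite _)
    · rintro _ ⟨i, _, rfl⟩
      exact hrR i
    · rw [Set.ncard_image_of_injective _ hinj, Set.ncard_univ]
      simpa using h3
  have hmem : ∀ v, v ∈ R → ∃ i, v = r i := by
    intro v hv
    rw [← hRr] at hv
    obtain ⟨i, _, e⟩ := hv
    exact ⟨i, e.symm⟩
  have sm : ∀ (A : Set (Option V)), none ∉ A → A.Nonempty → ∃ v, some v ∈ A := by
    rintro A hA ⟨x, hx⟩
    cases x with
    | none => exact absurd hx hA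
    | some v => exact ⟨v, hx⟩
  have dd : ∀ {A B : Set (Option V)}, Disjoint A B →
      Disjoint {v | some v ∈ A} {v | some v ∈ B} := by
    intro A B h
    exact Set.disjoint_left.2 fun v h1 h2 => Set.disjoint_left.1 h h1 h2
  refine core h5 h33 hr ?_ (Nat.card V + 1)
    (fun j => {v | some v ∈ P (k.succAbove j)}) (fun i => {v | some v ∈ Q i}) ?_ (by omega)
  · intro C hC hCr hcl v
    rcases hc C hC (Set.disjoint_left.2 fun x hx hxR => by
      obtain ⟨i, e⟩ := hmem x hxR
      exact hCr i (e ▸ hx)) (fun u hu v huv => by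
        rcases hcl u hu v huv with h | ⟨i, h⟩
        · exact Or.inl h
        · exact Or.inr (h ▸ hrR i)) v with h | h
    · exact Or.inl h
    · exact Or.inr (hmem v h)
  · refine ⟨fun j => ?_, fun i => ?_, hrQ, fun a b hab => ?_, fun a b hab => dd (dQ a b hab),
      fun a b => dd (dPQ _ _), fun a b => ?_⟩
    · exact cn_pull hR (hP _) (sm _ (nP _ (Fin.succAbove_ne k j)) (hP _).1)
    · exact cn_pull hR (hQ _) (sm _ (nQ _) (hQ _).1)
    · exact dd (dP _ _ ((Fin.succAbove_right_injective).ne hab))
    · obtain ⟨x, hx, y, hy, e⟩ := t (k.succAbove a) b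
      cases x with
      | none => exact absurd hx (nP _ (Fin.succAbove_ne k a))
      | some x' =>
        cases y with
        | none => exact absurd hy (nQ b)
        | some y' => exact ⟨x', hx, y', hy, e⟩

/-- a set which contains the new vertex and an old vertex contains a vertex of `R` -/
theorem exists_root {A : Set (Option V)} (hA : Cn (capG G R) A) (hn : none ∈ A)
    (hne : ∃ v, some v ∈ A) : ∃ x, x ∈ R ∧ some x ∈ A := by
  by_contra hno
  push Not at hno
  have h1 := hA.2 {none} (Set.singleton_subset_iff.2 hn) (Set.singleton_nonempty _) (by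
    rintro u rfl v hv huv
    cases v with
    | none => rfl
    | some v' => exact absurd hv (hno v' huv))
  obtain ⟨v, hv⟩ := hne
  exact absurd (h1 hv) (by simp)

theorem tch_pull (hR : ∀ u ∈ R, ∀ v ∈ R, u ≠ v → G.Adj u v) {A B : Set (Option V)}
    (hA : Cn (capG G R) A) (hB : Cn (capG G R) B) (hAn : ∃ v, some v ∈ A)
    (hBn : ∃ v, some v ∈ B) (hd : Disjoint A B) (ht : Tch (capG G R) A B) :
    Tch G {v | some v ∈ A} {v | some v ∈ B} := by
  obtain ⟨x, hx, y, hy, e⟩ := ht
  cases x with
  | none =>
    cases y with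
    | none => exact absurd e (SimpleGraph.irrefl _)
    | some y' =>
      obtain ⟨z, hz, hzA⟩ := exists_root hA hx hAn
      have hyR : y' ∈ R := e
      refine ⟨z, hzA, y', hy, hR z hz y' hyR ?_⟩
      rintro rfl
      exact Set.disjoint_left.1 hd hzA hy
  | some x' =>
    cases y with
    | none =>
      obtain ⟨z, hz, hzB⟩ := exists_root hB hy hBn
      have hxR : x' ∈ R := e
      refine ⟨x', hx, z, hzB, hR x' hxR z hz ?_⟩
      rintro rfl
      exact Set.disjoint_left.1 hd hx hzB
    | some y' => exact ⟨x', hx, y', hy, e⟩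

/-- A clique with at most three vertices which does not separate a planar graph lies on a face. -/
theorem fac [Finite V] (h5 : ¬ IsMinor (⊤ : SimpleGraph (Fin 5)) G)
    (h33 : ¬ IsMinor K33 G) (hR : ∀ u ∈ R, ∀ v ∈ R, u ≠ v → G.Adj u v) (h3 : R.ncard ≤ 3)
    (hc : ∀ C : Set V, C.Nonempty → Disjoint C R →
      (∀ u ∈ C, ∀ v, G.Adj u v → v ∈ C ∨ v ∈ R) → ∀ v, v ∈ C ∨ v ∈ R) :
    ¬ IsMinor K33 (capG G R) := by
  rintro ⟨μ, hμ, hd, he⟩
  have hC : ∀ a, Cn (capG G R) (μ a) := fun a => cn_iff.1 (hμ a)
  have ht : ∀ a b, K33.Adj a b → Tch (capG G R) (μ a) (μ b) := he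
  by_cases hall : ∀ a, ∃ v, some v ∈ μ a
  · refine h33 ⟨fun a => {v | some v ∈ μ a}, fun a => cn_iff.2 (cn_pull hR (hC a) (hall a)),
      fun a b hab => ?_, fun a b hab => ?_⟩
    · exact Set.disjoint_left.2 fun v h1 h2 => Set.disjoint_left.1 (hd a b hab) h1 h2
    · exact tch_pull hR (hC a) (hC b) (hall a) (hall b) (hd a b hab.ne) (ht a b hab)
  · push Not at hall
    obtain ⟨a, ha⟩ := hall
    rcases a with k | k
    · exact no_model h5 h33 hR h3 hc (P := fun i => μ (Sum.inl i)) (Q := fun i => μ (Sum.inr i))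
        (fun i => hC _) (fun i => hC _) (fun i j hij => hd _ _ (by simpa using hij))
        (fun i j hij => hd _ _ (by simpa using hij)) (fun i j => hd _ _ (by simp))
        (fun i j => ht _ _ (by simp)) k ha
    · exact no_model h5 h33 hR h3 hc (P := fun i => μ (Sum.inr i)) (Q := fun i => μ (Sum.inl i))
        (fun i => hC _) (fun i => hC _) (fun i j hij => hd _ _ (by simpa using hij))
        (fun i j hij => hd _ _ (by simpa using hij)) (fun i j => hd _ _ (by simp))
        (fun i j => ht _ _ (by simp)) k ha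

end Vale.Agent.P235.K5.H624
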